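import Vale.Agent.P281.H303.Gen.Push
import Mathlib.Analysis.Calculus.ImplicitContDiff

/-! P281, project T-M, T0 E10 (helper105): if no smooth point of a hypersurface `D` is submersive
over `Y`, then `F(D)` is small. -/

open Set Filter Metric Vale.Agent.P281 Vale.Agent.P281.H713 Vale.Agent.P281.H64
open scoped Topology ContDiff Manifold

noncomputable section

namespace Vale.Agent.P281.H105.TM

set_option linter.unusedSectionVars false

section vec

variable {A K V W : Type} [NormedAddCommGroup A] [NormedSpace ℂ A] [FiniteDimensional ℂ A]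
  [NormedAddCommGroup K] [NormedSpace ℂ K] [FiniteDimensional ℂ K]
  [NormedAddCommGroup V] [NormedSpace ℂ V] [FiniteDimensional ℂ V]
  [NormedAddCommGroup W] [NormedSpace ℂ W] [FiniteDimensional ℂ W]

/-- A smooth hypersurface whose tangent spaces contain the second factor is a product. -/
theorem slice {G : A × K → ℂ} {b : A} {u₁ : K} (hG : AnalyticAt ℂ G (b, u₁)) (h0 : G (b, u₁) = 0)
    (hd : fderiv ℂ G (b, u₁) ≠ 0)
    (hf : ∀ᶠ q in 𝓝 (b, u₁), G q = 0 → ∀ η : K, fderiv ℂ G q (0, η) = 0) :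
    ∀ᶠ u in 𝓝 u₁, G (b, u) = 0 := by
  have : CompleteSpace A := FiniteDimensional.complete ℂ A
  have : CompleteSpace K := FiniteDimensional.complete ℂ K
  have hn : (ω : WithTop ℕ∞) ≠ 0 := by simp
  obtain ⟨β, hβ⟩ : ∃ β : A, fderiv ℂ G (b, u₁) (β, 0) ≠ 0 := by
    by_contra hcon
    push Not at hcon
    apply hd
    refine ContinuousLinearMap.ext ?_
    rintro ⟨a, k⟩
    have h1 : ((a, k) : A × K) = (a, 0) + (0, k) := by simp
    rw [h1, map_add, hcon a, hf.self_of_nhds h0 k, add_zero]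
    rfl
  set L : K × ℂ →L[ℂ] A × K := ((ContinuousLinearMap.snd ℂ K ℂ).smulRight β).prod
    (ContinuousLinearMap.fst ℂ K ℂ) with hL
  set l : K × ℂ → A × K := fun q => (b, 0) + L q with hl
  have hlq : ∀ q : K × ℂ, l q = (b + q.2 • β, q.1) := by
    intro q
    simp [hl, hL]
  have hLq : ∀ q : K × ℂ, L q = (q.2 • β, q.1) := by
    intro q
    simp [hL]
  have hl0 : l (u₁, 0) = (b, u₁) := by
    rw [hlq]
    simp
  have hld : ∀ q, HasFDerivAt l L q := fun q => L.hasFDerivAt.const_add _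
  have hla : AnalyticAt ℂ l (u₁, 0) := analyticAt_const.add (L.analyticAt _)
  set h : K × ℂ → ℂ := fun q => G (l q) with hh
  have hha : AnalyticAt ℂ h (u₁, 0) := by
    refine AnalyticAt.fun_comp (g := G) (f := l) ?_ hla
    rw [hl0]
    exact hG
  have hcd : ContDiffAt ℂ ω h (u₁, 0) := hha.contDiffAt
  have hfd : fderiv ℂ h (u₁, 0) = (fderiv ℂ G (b, u₁)).comp L := by
    have h1 : HasFDerivAt G (fderiv ℂ G (b, u₁)) (l (u₁, 0)) := by
      rw [hl0]
      exact hG.differentiableAt.hasFDerivAt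
    exact (HasFDerivAt.comp (g := G) (u₁, (0 : ℂ)) h1 (hld _)).fderiv
  have hinv : (fderiv ℂ h (u₁, 0) ∘L .inr ℂ K ℂ).IsInvertible := by
    set a := fderiv ℂ G (b, u₁) (β, 0) with ha
    refine ⟨ContinuousLinearEquiv.unitsEquivAut ℂ (Units.mk0 a hβ), ?_⟩
    ext
    rw [hfd]
    simp [hL, ha]
  set ψ : K → ℂ := hcd.implicitFunction hn hinv with hψ
  have hψ0 : ψ u₁ = 0 := hcd.implicitFunction_apply_self hn hinv
  have hψe : ∀ᶠ x in 𝓝 u₁, h (x, ψ x) = h (u₁, 0) :=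
    hcd.eventually_apply_implicitFunction hn hinv
  have hψc : ContDiffAt ℂ ω ψ u₁ := hcd.contDiffAt_implicitFunction hn hinv
  have hh0 : h (u₁, 0) = 0 := by
    show G (l (u₁, 0)) = 0
    rw [hl0, h0]
  rw [hh0] at hψe
  have hψd : ∀ᶠ x in 𝓝 u₁, DifferentiableAt ℂ ψ x := by
    filter_upwards [hψc.eventually (by simp)] with x hx
    exact hx.differentiableAt hn
  set c : K → A × K := fun x => l (x, ψ x) with hc
  have hcc : ContinuousAt c u₁ := by
    have h1 : ContinuousAt (fun x => (x, ψ x)) u₁ := continuousAt_id.prodMk hψc.continuousAt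
    exact ContinuousAt.comp (g := l) (f := fun x => (x, ψ x)) (hld _).continuousAt h1
  have hc0 : c u₁ = (b, u₁) := by
    show l (u₁, ψ u₁) = _
    rw [hψ0, hl0]
  have hdc : ContinuousAt (fun q => fderiv ℂ G q (β, 0)) (b, u₁) :=
    ((ContinuousLinearMap.apply ℂ ℂ ((β, 0) : A × K)).continuous.continuousAt).comp
      hG.fderiv.continuousAt
  have e1 : ∀ᶠ x in 𝓝 u₁, AnalyticAt ℂ G (c x) ∧ (G (c x) = 0 → ∀ η : K,
      fderiv ℂ G (c x) (0, η) = 0) ∧ fderiv ℂ G (c x) (β, 0) ≠ 0 := by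
    refine hcc.eventually (p := fun q => AnalyticAt ℂ G q ∧ (G q = 0 → ∀ η : K,
      fderiv ℂ G q (0, η) = 0) ∧ fderiv ℂ G q (β, 0) ≠ 0) ?_
    rw [hc0]
    exact hG.eventually_analyticAt.and (hf.and (hdc.eventually_ne hβ))
  have e2 : ∀ᶠ x in 𝓝 u₁, DifferentiableAt ℂ ψ x ∧ fderiv ℂ ψ x = 0 := by
    filter_upwards [e1, hψd, hψe.eventually_nhds] with x h1 h2 h3
    refine ⟨h2, ?_⟩
    obtain ⟨g1, g2, g3⟩ := h1
    have h4 : HasFDerivAt (fun x => (x, ψ x)) ((ContinuousLinearMap.id ℂ K).prod (fderiv ℂ ψ x)) x :=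
      (hasFDerivAt_id x).prodMk h2.hasFDerivAt
    have h5 : HasFDerivAt c (L.comp ((ContinuousLinearMap.id ℂ K).prod (fderiv ℂ ψ x))) x :=
      HasFDerivAt.comp (g := l) x (hld _) h4
    have h6 : HasFDerivAt (fun x => G (c x)) ((fderiv ℂ G (c x)).comp
        (L.comp ((ContinuousLinearMap.id ℂ K).prod (fderiv ℂ ψ x)))) x :=
      HasFDerivAt.comp (g := G) x g1.differentiableAt.hasFDerivAt h5
    have h7 : HasFDerivAt (fun x => G (c x)) (0 : K →L[ℂ] ℂ) x :=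
      (hasFDerivAt_const (0 : ℂ) x).congr_of_eventuallyEq (by
        filter_upwards [h3] with y hy
        exact hy)
    have h8 := h6.unique h7
    refine ContinuousLinearMap.ext fun η => ?_
    have h9 : fderiv ℂ G (c x) (L (η, fderiv ℂ ψ x η)) = 0 := congrArg (fun T => T η) h8
    rw [hLq] at h9
    simp only at h9
    have h10 : ((fderiv ℂ ψ x η • β, η) : A × K) = fderiv ℂ ψ x η • ((β, 0) : A × K) + (0, η) := by
      simp
    rw [h10, map_add, map_smul, g2 h3.self_of_nhds η, add_zero, smul_eq_mul] at h9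
    exact (mul_eq_zero.1 h9).resolve_right g3
  obtain ⟨ρ, hρ, hb⟩ := Metric.eventually_nhds_iff_ball.1 e2
  filter_upwards [ball_mem_nhds u₁ hρ, hψe] with u hu hu2
  have h1 : ψ u = ψ u₁ := isOpen_ball.is_const_of_fderiv_eq_zero (𝕜 := ℂ)
    (convex_ball u₁ ρ).isPreconnected (fun x hx => (hb x hx).1.differentiableWithinAt)
    (fun x hx => (hb x hx).2) hu (mem_ball_self hρ)
  rw [hψ0] at h1
  rw [h1] at hu2
  have h2 : G (l (u, 0)) = 0 := hu2
  rw [hlq] at h2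
  simpa using h2

theorem ker_of_flat {T : V →L[ℂ] W} {B : V →L[ℂ] ℂ} (hT : Function.Surjective T)
    (h : ¬ ∀ y, ∃ ξ, B ξ = 0 ∧ T ξ = y) {ζ : V} (hζ : T ζ = 0) : B ζ = 0 := by
  by_contra hne
  apply h
  intro y
  obtain ⟨ξ, hξ⟩ := hT y
  refine ⟨ξ - (B ξ / B ζ) • ζ, ?_, ?_⟩
  · rw [map_sub, map_smul, smul_eq_mul, div_mul_cancel₀ _ hne, sub_self]
  · rw [map_sub, map_smul, hζ, smul_zero, sub_zero, hξ]

/-- The vector space version of E10. -/
theorem flat_vec {e : V → ℂ} {F : V → W} {z₀ : V} (he : AnalyticAt ℂ e z₀)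
    (hF : AnalyticAt ℂ F z₀) (hs : Function.Surjective (fderiv ℂ F z₀))
    (hd : ∀ᶠ z in 𝓝 z₀, e z = 0 → z ∈ closure {z' | e z' = 0 ∧ fderiv ℂ e z' ≠ 0})
    (hfl : ∀ᶠ z in 𝓝 z₀, e z = 0 → fderiv ℂ e z ≠ 0 →
      ¬ ∀ y, ∃ ξ, fderiv ℂ e z ξ = 0 ∧ fderiv ℂ F z ξ = y)
    {U : Type} [NormedAddCommGroup U] [NormedSpace ℂ U] [FiniteDimensional ℂ U] {φ : U → V} {v : U}
    (hφ : AnalyticAt ℂ φ v) (hφv : φ v = z₀) (hφe : ∀ᶠ u in 𝓝 v, e (φ u) = 0)
    (hφs : Function.Surjective (fderiv ℂ (fun u => F (φ u)) v)) : ∀ᶠ z in 𝓝 z₀, e z = 0 := by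
  have : CompleteSpace V := FiniteDimensional.complete ℂ V
  have : CompleteSpace W := FiniteDimensional.complete ℂ W
  have : CompleteSpace U := FiniteDimensional.complete ℂ U
  have hn : (ω : WithTop ℕ∞) ≠ 0 := by simp
  obtain ⟨κ, R, hRa, hR0, hRr, hRl⟩ := H150.Gen.exists_straight hF hs
  have hRc : ContinuousAt R (F z₀, κ z₀) := hRa.continuousAt
  have P2 : ∀ᶠ q in 𝓝 (F z₀, κ z₀), AnalyticAt ℂ e (R q) := by
    refine hRc.eventually (p := fun z => AnalyticAt ℂ e z) ?_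
    rw [hR0]
    exact he.eventually_analyticAt
  have P3 : ∀ᶠ q in 𝓝 (F z₀, κ z₀), AnalyticAt ℂ F (R q) := by
    refine hRc.eventually (p := fun z => AnalyticAt ℂ F z) ?_
    rw [hR0]
    exact hF.eventually_analyticAt
  have P5 : ∀ᶠ q in 𝓝 (F z₀, κ z₀), e (R q) = 0 → fderiv ℂ e (R q) ≠ 0 →
      ¬ ∀ y, ∃ ξ, fderiv ℂ e (R q) ξ = 0 ∧ fderiv ℂ F (R q) ξ = y := by
    refine hRc.eventually (p := fun z => e z = 0 → fderiv ℂ e z ≠ 0 →
      ¬ ∀ y, ∃ ξ, fderiv ℂ e z ξ = 0 ∧ fderiv ℂ F z ξ = y) ?_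
    rw [hR0]
    exact hfl
  obtain ⟨ρ, hρ, hP⟩ := Metric.eventually_nhds_iff_ball.1
    (hRa.eventually_analyticAt.and (P2.and (P3.and (hRr.eventually_nhds.and P5))))
  have hcc : ContinuousAt (fun x => (F x, κ x)) z₀ := hF.continuousAt.prodMk κ.continuous.continuousAt
  have N1 : ∀ᶠ x in 𝓝 z₀, (F x, κ x) ∈ ball (F z₀, κ z₀) ρ :=
    hcc.eventually (ball_mem_nhds _ hρ)
  have N2 : ∀ᶠ x in 𝓝 z₀, ∀ᶠ x' in 𝓝 x, R (F x', κ x') = x' := hRl.eventually_nhds
  have N3 : ∀ᶠ x in 𝓝 z₀, AnalyticAt ℂ F x := hF.eventually_analyticAt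
  have hmem : ∀ {b u}, (b, u) ∈ ball (F z₀, κ z₀) ρ ↔ b ∈ ball (F z₀) ρ ∧ u ∈ ball (κ z₀) ρ := by
    intro b u
    rw [← ball_prod_same]
    rfl
  have C1 : ∀ᶠ z in 𝓝 z₀, e z = 0 → fderiv ℂ e z ≠ 0 → ∀ u ∈ ball (κ z₀) ρ,
      e (R (F z, u)) = 0 := by
    filter_upwards [N1, N2, N3] with z n1 n2 n3 hz hdz
    have hzR : R (F z, κ z) = z := n2.self_of_nhds
    obtain ⟨p1, p2, p3, p4, p5⟩ := hP _ n1
    have hGa : AnalyticAt ℂ (fun q => e (R q)) (F z, κ z) :=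
      AnalyticAt.fun_comp (g := e) (f := R) p2 p1
    have hG0 : e (R (F z, κ z)) = 0 := by rw [hzR, hz]
    have hGd : fderiv ℂ (fun q => e (R q)) (F z, κ z) ≠ 0 := by
      intro h
      apply hdz
      have h1 : e =ᶠ[𝓝 z] fun x => (fun q => e (R q)) (F x, κ x) := by
        filter_upwards [n2] with x hx
        show e x = e (R (F x, κ x))
        rw [hx]
      have h3 : HasFDerivAt (fun x => (F x, κ x)) ((fderiv ℂ F z).prod κ) z :=
        n3.differentiableAt.hasFDerivAt.prodMk κ.hasFDerivAt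
      have h2 : HasFDerivAt (fun x => (fun q => e (R q)) (F x, κ x))
          ((fderiv ℂ (fun q => e (R q)) (F z, κ z)).comp ((fderiv ℂ F z).prod κ)) z :=
        HasFDerivAt.comp (g := fun q => e (R q)) z hGa.differentiableAt.hasFDerivAt h3
      rw [h1.fderiv_eq, h2.fderiv, h, ContinuousLinearMap.zero_comp]
    have hev : ∀ᶠ q in 𝓝 (F z, κ z), e (R q) = 0 → ∀ η,
        fderiv ℂ (fun q => e (R q)) q (0, η) = 0 := by
      have h1 : ContinuousAt (fun q => fderiv ℂ e (R q)) (F z, κ z) :=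
        ContinuousAt.comp (g := fderiv ℂ e) (f := R) p2.fderiv.continuousAt p1.continuousAt
      have h2 : ∀ᶠ q in 𝓝 (F z, κ z), fderiv ℂ e (R q) ≠ 0 := h1.eventually_ne (by
        rw [hzR]
        exact hdz)
      filter_upwards [h2, isOpen_ball.mem_nhds n1] with q h3 h4 h5 η
      obtain ⟨r1, r2, r3, r4, r5⟩ := hP q h4
      have h6 := r5 h5 h3
      have h7 : HasFDerivAt (fun q => F (R q)) ((fderiv ℂ F (R q)).comp (fderiv ℂ R q)) q :=
        HasFDerivAt.comp (g := F) q r3.differentiableAt.hasFDerivAt r1.differentiableAt.hasFDerivAt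
      have h8 : HasFDerivAt (fun q => F (R q)) (ContinuousLinearMap.fst ℂ W _) q :=
        HasFDerivAt.congr_of_eventuallyEq hasFDerivAt_fst (by
          filter_upwards [r4] with a ha
          exact ha)
      have h9 := h7.unique h8
      have hsur : Function.Surjective (fderiv ℂ F (R q)) := fun y =>
        ⟨fderiv ℂ R q (y, 0), congrArg (fun T => T (y, 0)) h9⟩
      have h10 : fderiv ℂ F (R q) (fderiv ℂ R q (0, η)) = 0 := congrArg (fun T => T (0, η)) h9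
      have h11 := ker_of_flat hsur h6 h10
      have h12 : fderiv ℂ (fun q => e (R q)) q = (fderiv ℂ e (R q)).comp (fderiv ℂ R q) :=
        (HasFDerivAt.comp (g := e) q r2.differentiableAt.hasFDerivAt
          r1.differentiableAt.hasFDerivAt).fderiv
      rw [h12]
      exact h11
    have hsl := slice (G := fun q => e (R q)) hGa hG0 hGd hev
    have hFz := hmem.1 n1
    have han : AnalyticOnNhd ℂ (fun u => e (R (F z, u))) (ball (κ z₀) ρ) := by
      intro u hu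
      obtain ⟨s1, s2, -⟩ := hP (F z, u) (hmem.2 ⟨hFz.1, hu⟩)
      exact AnalyticAt.fun_comp (g := fun q => e (R q)) (f := fun u => (F z, u))
        (AnalyticAt.fun_comp (g := e) (f := R) s2 s1) (analyticAt_const.prod analyticAt_id)
    intro u hu
    exact han.eqOn_zero_of_preconnected_of_eventuallyEq_zero (convex_ball _ _).isPreconnected
      hFz.2 hsl hu
  have C2 : ∀ᶠ z in 𝓝 z₀, e z = 0 → ∀ u ∈ ball (κ z₀) ρ, e (R (F z, u)) = 0 := by
    filter_upwards [C1.eventually_nhds, hd, N1, N3] with z c1 hdz n1 n3 hz u hu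
    by_contra hne
    obtain ⟨p1, p2, -⟩ := hP (F z, u) (hmem.2 ⟨(hmem.1 n1).1, hu⟩)
    have h1 : ContinuousAt (fun z' => e (R (F z', u))) z := by
      have h2 : ContinuousAt (fun z' => (F z', u)) z := n3.continuousAt.prodMk continuousAt_const
      have h3 : ContinuousAt (fun z' => R (F z', u)) z :=
        ContinuousAt.comp (g := R) (f := fun z' => (F z', u)) p1.continuousAt h2
      exact ContinuousAt.comp (g := e) (f := fun z' => R (F z', u)) p2.continuousAt h3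
    have h2 := h1.eventually_ne hne
    obtain ⟨z', ⟨hz'1, hz'2⟩, h3, h4⟩ :=
      ((mem_closure_iff_frequently.1 (hdz hz)).and_eventually (h2.and c1)).exists
    exact h3 (h4 hz'1 hz'2 u hu)
  have hFφ : AnalyticAt ℂ (fun u => F (φ u)) v := by
    refine AnalyticAt.fun_comp (g := F) (f := φ) ?_ hφ
    rw [hφv]
    exact hF
  have hmap := (hFφ.contDiffAt.hasStrictFDerivAt hn).map_nhds_eq_of_surj
    (LinearMap.range_eq_top.2 hφs)
  have C3 : ∀ᶠ b in 𝓝 (F z₀), ∀ u ∈ ball (κ z₀) ρ, e (R (b, u)) = 0 := by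
    have hv : F z₀ = F (φ v) := by rw [hφv]
    rw [hv, ← hmap, eventually_map]
    have h2 : ∀ᶠ u in 𝓝 v, e (φ u) = 0 → ∀ u' ∈ ball (κ z₀) ρ, e (R (F (φ u), u')) = 0 := by
      refine hφ.continuousAt.eventually (p := fun z => e z = 0 → ∀ u' ∈ ball (κ z₀) ρ,
        e (R (F z, u')) = 0) ?_
      rw [hφv]
      exact C2
    filter_upwards [hφe, h2] with u h3 h4
    exact h4 h3
  filter_upwards [hF.continuousAt.eventually C3, N1, N2] with z h1 h2 h3
  have h4 := h1 (κ z) (hmem.1 h2).2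
  rwa [h3.self_of_nhds] at h4

end vec

open Vale.Agent.P281.H511.Gen hiding pr
open Vale.Agent.P281.H64.Gen
open Vale.Agent.P281.H303.Gen
open Vale.Agent.P281.H150.Gen (AnIn NoSub SThin)
open Vale.Agent.P281.H64.Thin (IsThinSet)

theorem chart_bij {n : ℕ} {Z : Type} [TopologicalSpace Z] [ChartedSpace (Cm n) Z]
    [IsManifold 𝓘(ℂ, Cm n) ω Z] {z₀ z : Z} (hz : z ∈ (chartAt (Cm n) z₀).source) :
    Function.Bijective (dV (Cm n) (chartAt (Cm n) z₀ : Z → Cm n) z) := by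
  have hdet : (dV (Cm n) (chartAt (Cm n) z₀ : Z → Cm n) z).det ≠ 0 := jac_chart_ne_zero hz
  exact (LinearMap.equivOfDetNeZero
      ((dV (Cm n) (chartAt (Cm n) z₀ : Z → Cm n) z :
        Cm n →L[ℂ] Cm n) : Cm n →ₗ[ℂ] Cm n) hdet).bijective

/-- **E10** -/
theorem flat {n q : ℕ} {X Y : Type} [TopologicalSpace X] [T2Space X] [CompactSpace X]
    [ChartedSpace (Cm n) X] [IsManifold 𝓘(ℂ, Cm n) ω X] [TopologicalSpace Y] [T2Space Y]
    [ChartedSpace (Cm q) Y] [IsManifold 𝓘(ℂ, Cm q) ω Y] {F : X → Y}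
    (hF : ContMDiff 𝓘(ℂ, Cm n) 𝓘(ℂ, Cm q) ω F) {D : Set X} (hDc : IsClosed D)
    (hloc : ∀ x, ∃ e, J.IsLocalEq (Cm n) D e x)
    (h : ∀ w ∈ D, ∀ e, J.IsLocalEq (Cm n) D e w → J.dif (Cm n) e w ≠ 0 →
      ¬ ∀ y : Cm q, ∃ ξ : Cm n, J.dif (Cm n) e w ξ = 0 ∧
        mfderiv 𝓘(ℂ, Cm n) 𝓘(ℂ, Cm q) F w ξ = y) : IsSmallSet (Cm q) (F '' D) := by
  refine ⟨(hDc.isCompact.image hF.continuous).isClosed, ?_⟩
  refine H150.Gen.img n q X Y F D hF (isAnalyticSet_of_isLocalEq hloc) ?_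
  intro m φ hφ v hv hs
  set x := φ v with hx0
  obtain ⟨e, he⟩ := hloc x
  obtain ⟨V, hVo, hxV, hV1, hV2, hV3⟩ := id he
  have hleq : ∀ x' ∈ V, J.IsLocalEq (Cm n) D e x' := fun x' hx' => ⟨V, hVo, hx', hV1, hV2, hV3⟩
  set χ := chartAt (Cm n) x with hχ
  have hx : x ∈ χ.source := mem_chart_source _ x
  set ψ := chartAt (Cm q) (F x) with hψ
  have hFx : F x ∈ ψ.source := mem_chart_source _ _
  have hV1' : ∀ z ∈ V, HolV (Cm n) e z := hV1
  have hf1 : ∀ z, F z ∈ ψ.source → HolV (Cm n) (fun z => ψ (F z)) z := fun z hz =>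
    HolV.comp (E' := Cm q) (h := (ψ : Y → Cm q)) (HolV.chart hz) (hF z)
  set W : Set (Cm n) := χ.target ∩ χ.symm ⁻¹' (V ∩ F ⁻¹' ψ.source) with hW
  have hWo : IsOpen W :=
    χ.isOpen_inter_preimage_symm (hVo.inter (ψ.open_source.preimage hF.continuous))
  have hxW : χ x ∈ W := by
    refine ⟨χ.map_source hx, ?_⟩
    rw [mem_preimage, χ.left_inv hx]
    exact ⟨hxV, hFx⟩
  have hW1 : ∀ z ∈ W, AnalyticAt ℂ (e ∘ χ.symm) z ∧
      AnalyticAt ℂ ((fun z => ψ (F z)) ∘ χ.symm) z := by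
    rintro z ⟨hz, hzV, hzV'⟩
    have h1 := (HolV.rep (χ.map_target hz) (hV1' _ hzV)).analyticAt
    have h2 := (HolV.rep (χ.map_target hz) (hf1 _ hzV')).analyticAt
    rw [← hχ, χ.right_inv hz] at h1 h2
    exact ⟨h1, h2⟩
  -- the map in the charts
  have hvs : φ v ∈ χ.source := hx
  have hha : ContDiffAt ℂ ω (fun u => χ (φ u)) v := contMDiffAt_iff_contDiffAt.1
    (ContMDiffAt.comp v (H150.Gen.holAt_chart hvs) (hφ v hv).1)
  have hcomp : (fun u => ((fun z => ψ (F z)) ∘ χ.symm) (χ (φ u))) =ᶠ[𝓝 v]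
      fun u => ψ (F (φ u)) := by
    filter_upwards [(hφ v hv).1.continuousAt.eventually (χ.open_source.mem_nhds hvs)] with u hu
    show ψ (F (χ.symm (χ (φ u)))) = _
    rw [χ.left_inv hu]
  have hsub : Function.Surjective
      (fderiv ℂ (fun u => ((fun z => ψ (F z)) ∘ χ.symm) (χ (φ u))) v) := by
    rw [hcomp.fderiv_eq]
    have h2 : dV (Cm m) (fun u => ψ (F (φ u))) v =
        (dV (Cm q) (ψ : Y → Cm q) (F (φ v))).comp (dM (Cm m) (Cm q) (fun u => F (φ u)) v) :=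
      dV_comp (E := Cm m) (E' := Cm q) (h := (ψ : Y → Cm q)) (f := fun u => F (φ u)) (x := v)
        (HolV.chart hFx) (ContMDiffAt.comp v (hF _) (hφ v hv).1)
    have h3 : dV (Cm m) (fun u => ψ (F (φ u))) v = fderiv ℂ (fun u => ψ (F (φ u))) v := by
      unfold dV
      exact mfderiv_eq_fderiv
    rw [← h3, h2]
    intro y
    obtain ⟨ζ, hζ⟩ := (chart_bij hFx).2 y
    obtain ⟨ξ, hξ⟩ := hs ζ
    refine ⟨ξ, ?_⟩
    have h4 : dM (Cm m) (Cm q) (fun u => F (φ u)) v ξ = ζ := hξ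
    show dV (Cm q) (ψ : Y → Cm q) (F (φ v)) (dM (Cm m) (Cm q) (fun u => F (φ u)) v ξ) = y
    rw [h4]
    exact hζ
  have hsub0 : Function.Surjective (fderiv ℂ ((fun z => ψ (F z)) ∘ χ.symm) (χ x)) := by
    have h1 : HasFDerivAt (fun u => ((fun z => ψ (F z)) ∘ χ.symm) (χ (φ u)))
        ((fderiv ℂ ((fun z => ψ (F z)) ∘ χ.symm) (χ x)).comp (fderiv ℂ (fun u => χ (φ u)) v)) v :=
      HasFDerivAt.comp (g := (fun z => ψ (F z)) ∘ χ.symm) (f := fun u => χ (φ u)) v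
        (hW1 _ hxW).2.differentiableAt.hasFDerivAt
        (hha.differentiableAt (by simp)).hasFDerivAt
    rw [h1.fderiv] at hsub
    intro y
    obtain ⟨ξ, hξ⟩ := hsub y
    exact ⟨_, hξ⟩
  have key : ∀ᶠ z in 𝓝 (χ x), (e ∘ χ.symm) z = 0 := by
    refine flat_vec (F := (fun z => ψ (F z)) ∘ χ.symm) (hW1 _ hxW).1 (hW1 _ hxW).2 hsub0 ?_ ?_
      (φ := fun u => χ (φ u)) (v := v) hha.analyticAt rfl ?_ hsub
    · filter_upwards [hWo.mem_nhds hxW] with z hzW h0
      obtain ⟨hz, hzV, hzV'⟩ := hzW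
      have h1 := hV3 ⟨(hV2 _ hzV).2 h0, hzV⟩
      rw [mem_closure_iff_frequently] at h1 ⊢
      intro hcon
      apply h1
      have h2 := (χ.eventually_nhds' (fun x => ¬ (x ∈ {x | x ∈ D ∧ J.dif (Cm n) e x ≠ 0}))
        (χ.map_target hz)).1 (by
        rw [χ.right_inv hz]
        filter_upwards [hcon, hWo.mem_nhds (show z ∈ W from ⟨hz, hzV, hzV'⟩)] with z' h3 h4 h5
        apply h3
        refine ⟨(hV2 _ h4.2.1).1 h5.1, ?_⟩
        have h6 := (dif_ne_iff_chart (χ.map_target h4.1) (hV1 _ h4.2.1)).1 h5.2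
        rwa [← hχ, χ.right_inv h4.1] at h6)
      exact h2
    · filter_upwards [hWo.mem_nhds hxW] with z hzW h0 hdz hcon
      obtain ⟨hz, hzV, hzV'⟩ := hzW
      have hxs := χ.map_target hz
      set x' := χ.symm z with hxz
      have hxχ : χ x' = z := χ.right_inv hz
      have e1 := dV_eq_chart hxs (hV1' x' hzV)
      have e2 := dV_eq_chart hxs (hf1 x' hzV')
      rw [← hχ, hxχ] at e1 e2
      have e3 : dV (Cm n) (fun z => ψ (F z)) x' =
          (dV (Cm q) (ψ : Y → Cm q) (F x')).comp (dM (Cm n) (Cm q) F x') :=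
        dV_comp (E' := Cm q) (h := (ψ : Y → Cm q)) (HolV.chart hzV') (hF x')
      have hbij := chart_bij (n := n) hxs
      refine h x' ((hV2 _ hzV).2 h0) e (hleq x' hzV) ?_ ?_
      · intro h1
        apply hdz
        refine ContinuousLinearMap.ext fun ζ => ?_
        obtain ⟨ξ, rfl⟩ := hbij.2 ζ
        have h2 : dV (Cm n) e x' ξ = 0 := by
          have h3 : dV (Cm n) e x' = 0 := h1
          rw [h3]
          rfl
        rw [e1] at h2
        exact h2
      · intro y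
        obtain ⟨ξ', h1, h2⟩ := hcon (dV (Cm q) (ψ : Y → Cm q) (F x') y)
        obtain ⟨ξ, rfl⟩ := hbij.2 ξ'
        refine ⟨ξ, ?_, ?_⟩
        · show dV (Cm n) e x' ξ = 0
          rw [e1]
          exact h1
        · show dM (Cm n) (Cm q) F x' ξ = y
          apply (chart_bij hzV').1
          have h3 : dV (Cm n) (fun z => ψ (F z)) x' ξ = dV (Cm q) (ψ : Y → Cm q) (F x') y := by
            rw [e2]
            exact h2
          rw [e3] at h3
          exact h3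
    · filter_upwards [isOpen_ball.mem_nhds hv, (hφ v hv).1.continuousAt.eventually
        ((χ.open_source.inter hVo).mem_nhds ⟨hx, hxV⟩)] with u hu hu2
      show e (χ.symm (χ (φ u))) = 0
      rw [χ.left_inv hu2.1]
      exact (hV2 _ hu2.2).1 (hφ u hu).2
  apply isLocalEq_not_zero he
  filter_upwards [(χ.continuousAt hx).eventually key, χ.open_source.mem_nhds hx] with y h1 h2
  have h3 : e (χ.symm (χ y)) = 0 := h1
  rwa [χ.left_inv h2] at h3

end Vale.Agent.P281.H105.TM
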