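import Vale.Agent.P281.H180.TM.E9
import Vale.Agent.P281.H105.TM.Flat

/-! P281, project T-M, block T0 (helper105): E10 in the letters of ESpec. -/

open Set Filter Metric Vale.Agent.P281 Vale.Agent.P281.H713 Vale.Agent.P281.H64
open Vale.Agent.P281.H303.Gen (SmEq)
open Vale.Agent.P281.H64.Gen (IsSmallSet IsAnalyticSet)
open Vale.Agent.P281.H180.TM
open scoped Topology ContDiff Manifold

noncomputable section

namespace Vale.Agent.P281.H105.TM

/-- **E10**. -/
theorem smallStmt : SmallStmt := by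
  intro q X Y _ _ _ _ _ _ _ _ _ f D hf hD hloc h
  refine flat (n := q + 1 + 1) (q := q) hf hD hloc ?_
  intro w hw e he hde hcon
  have hev := H511.Gen.isLocalEq_mem_iff he
  have h1 := h w e ⟨H511.Gen.isLocalEq_holAt he, hev.self_of_nhds.1 hw, hde, hev⟩
  have h2 := rnk_of_onto (A := dM (Cm (q + 1 + 1)) (Cm q) f w)
    (e := dV (Cm (q + 1 + 1)) e w) hcon
  omega

end Vale.Agent.P281.H105.TM
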