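import Vale.Agent.P281.H303.Gen.Push

/-! P281, project T-M, T0 E9 (helper105): a prime divisor which is étale over `Z` somewhere is mapped
onto `Z`. -/

open Set Filter Metric Vale.Agent.P281 Vale.Agent.P281.H713 Vale.Agent.P281.H64
open scoped Topology ContDiff Manifold

noncomputable section

namespace Vale.Agent.P281.H105.TM

set_option linter.unusedSectionVars false

open Vale.Agent.P281.H511.Gen hiding pr
open Vale.Agent.P281.H64.Gen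
open Vale.Agent.P281.H303.Gen
open Vale.Agent.P281.H150.Gen (AnIn NoSub SThin)
open Vale.Agent.P281.H64.Thin (IsThinSet)

variable {p : ℕ} {X Z : Type} [TopologicalSpace X] [ChartedSpace (Cm (p + 1)) X]
  [IsManifold 𝓘(ℂ, Cm (p + 1)) ω X] [TopologicalSpace Z] [ChartedSpace (Cm p) Z]
  [IsManifold 𝓘(ℂ, Cm p) ω Z]

/-- `D` is étale over `Z` at `w`. -/
def Et (p : ℕ) {X Z : Type} [TopologicalSpace X] [ChartedSpace (Cm (p + 1)) X]
    [TopologicalSpace Z] [ChartedSpace (Cm p) Z] (g : X → Z) (D : Set X) (w : X) : Prop :=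
  ∃ e : X → ℂ, J.IsLocalEq (Cm (p + 1)) D e w ∧ ∀ ξ : Cm (p + 1),
    dM (Cm (p + 1)) (Cm p) g w ξ = 0 → dV (Cm (p + 1)) e w ξ = 0 → ξ = 0

theorem dV_chart_inj {z₀ z : Z} (hz : z ∈ (chartAt (Cm p) z₀).source) :
    Function.Bijective (dV (Cm p) (chartAt (Cm p) z₀ : Z → Cm p) z) := by
  have hdet : (dV (Cm p) (chartAt (Cm p) z₀ : Z → Cm p) z).det ≠ 0 := jac_chart_ne_zero hz
  exact (LinearMap.equivOfDetNeZero
      ((dV (Cm p) (chartAt (Cm p) z₀ : Z → Cm p) z :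
        Cm p →L[ℂ] Cm p) : Cm p →ₗ[ℂ] Cm p) hdet).bijective

theorem holV_comp_chart {g : X → Z} (hg : ContMDiff 𝓘(ℂ, Cm (p + 1)) 𝓘(ℂ, Cm p) ω g) {z₀ : Z}
    {w : X} (hz : g w ∈ (chartAt (Cm p) z₀).source) :
    HolV (Cm (p + 1)) (fun z => chartAt (Cm p) z₀ (g z)) w :=
  HolV.comp (E' := Cm p) (h := (chartAt (Cm p) z₀ : Z → Cm p)) (HolV.chart hz) (hg w)

theorem dV_comp_chart {g : X → Z} (hg : ContMDiff 𝓘(ℂ, Cm (p + 1)) 𝓘(ℂ, Cm p) ω g) {z₀ : Z}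
    {w : X} (hz : g w ∈ (chartAt (Cm p) z₀).source) (ξ : Cm (p + 1)) :
    dV (Cm (p + 1)) (fun z => chartAt (Cm p) z₀ (g z)) w ξ = 0 ↔
      dM (Cm (p + 1)) (Cm p) g w ξ = 0 := by
  have h1 : dV (Cm (p + 1)) (fun z => chartAt (Cm p) z₀ (g z)) w =
      (dV (Cm p) (chartAt (Cm p) z₀ : Z → Cm p) (g w)).comp (dM (Cm (p + 1)) (Cm p) g w) :=
    dV_comp (E' := Cm p) (h := (chartAt (Cm p) z₀ : Z → Cm p)) (HolV.chart hz) (hg w)
  rw [h1, ContinuousLinearMap.comp_apply]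
  constructor
  · intro h
    apply (dV_chart_inj hz).1
    rw [h, map_zero]
  · intro h
    rw [h, map_zero]

theorem et_iff {g : X → Z} (hg : ContMDiff 𝓘(ℂ, Cm (p + 1)) 𝓘(ℂ, Cm p) ω g) {D : Set X} {w : X}
    (hw : w ∈ D) (hloc : ∃ e, J.IsLocalEq (Cm (p + 1)) D e w) {z₀ : Z}
    (hz : g w ∈ (chartAt (Cm p) z₀).source) :
    Et p g D w ↔ EtAt D (fun z => chartAt (Cm p) z₀ (g z)) w := by
  constructor
  · rintro ⟨e, he, h⟩
    exact (etAt_iff hw he).2 fun ξ h1 h2 => h ξ ((dV_comp_chart hg hz ξ).1 h1) h2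
  · intro h
    obtain ⟨e, he⟩ := hloc
    exact ⟨e, he, fun ξ h1 h2 => (etAt_iff hw he).1 h ξ ((dV_comp_chart hg hz ξ).2 h1) h2⟩

/-- The points which are not étale form an analytic set. -/
theorem isAnalyticSet_notEt {g : X → Z} (hg : ContMDiff 𝓘(ℂ, Cm (p + 1)) 𝓘(ℂ, Cm p) ω g)
    {D : Set X} (hloc : ∀ x, ∃ e, J.IsLocalEq (Cm (p + 1)) D e x) :
    IsAnalyticSet (Cm (p + 1)) {w | w ∈ D ∧ ¬ Et p g D w} := by
  intro x
  obtain ⟨e, he⟩ := hloc x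
  set ψ := chartAt (Cm p) (g x) with hψ
  have hgx : g x ∈ ψ.source := mem_chart_source _ _
  obtain ⟨W, hWo, hxW, hWt, hW1, -, hW3⟩ := exists_chart he (holV_comp_chart hg hgx)
  set φ := chartAt (Cm (p + 1)) x with hφ
  have hx : x ∈ φ.source := mem_chart_source _ x
  obtain ⟨U, ι, k, hU, hzU, hk, hA⟩ := anIn_bad hWo hW1 (φ x) hxW
  refine ⟨(φ.source ∩ φ ⁻¹' (W ∩ U)) ∩ g ⁻¹' ψ.source, ι, fun i z => k i (φ z),
    (φ.isOpen_inter_preimage (hWo.inter hU)).inter (ψ.open_source.preimage hg.continuous),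
    ⟨⟨hx, hxW, hzU⟩, hgx⟩, ?_, ?_⟩
  · rintro i z ⟨⟨hz, -, hzU'⟩, -⟩
    exact HolV.comp_contDiff (G := k i) ((hk i _ hzU').contDiffAt) (HolV.chart hz)
  · rintro z ⟨⟨hz, hzW, hzU'⟩, hgz⟩
    rw [← hA _ hzU', ← hW3 _ hzW, φ.left_inv hz]
    constructor
    · rintro ⟨h1, h2⟩
      exact ⟨h1, fun h3 => h2 ((et_iff hg h1 (hloc z) hgz).2 h3)⟩
    · rintro ⟨h1, h2⟩
      exact ⟨h1, fun h3 => h2 ((et_iff hg h1 (hloc z) hgz).1 h3)⟩

/-- The image of the points which are not étale is small. -/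
theorem notEt_small [T2Space X] [CompactSpace X] [T2Space Z] {g : X → Z}
    (hg : ContMDiff 𝓘(ℂ, Cm (p + 1)) 𝓘(ℂ, Cm p) ω g) {D : Set X}
    (hloc : ∀ x, ∃ e, J.IsLocalEq (Cm (p + 1)) D e x) :
    IsSmallSet (Cm p) (g '' {w | w ∈ D ∧ ¬ Et p g D w}) := by
  have hA := isAnalyticSet_notEt hg hloc
  have hcl : IsClosed {w | w ∈ D ∧ ¬ Et p g D w} := by
    rw [← isOpen_compl_iff, isOpen_iff_mem_nhds]
    intro x hx
    obtain ⟨U, ι, h, hU, hxU, hh, hAU⟩ := hA x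
    have h1 : ¬ ∀ i, h i x = 0 := fun h2 => hx ((hAU x hxU).2 h2)
    push Not at h1
    obtain ⟨i, hi⟩ := h1
    have h2 : ContinuousAt (h i) x := HolV.continuousAt (hh i x hxU)
    filter_upwards [h2.eventually_ne hi, hU.mem_nhds hxU] with y h3 h4 h5
    exact h3 ((hAU y h4).1 h5 i)
  refine ⟨(hcl.isCompact.image hg.continuous).isClosed, ?_⟩
  refine H150.Gen.img (p + 1) p X Z g _ hg hA ?_
  intro m φ hφ v hv hs
  have hn : (ω : WithTop ℕ∞) ≠ 0 := by simp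
  set x := φ v with hx0
  obtain ⟨e, he⟩ := hloc x
  set ψ := chartAt (Cm p) (g x) with hψ
  have hgx : g x ∈ ψ.source := mem_chart_source _ _
  obtain ⟨W, hWo, hxW, hWt, hW1, hW2, hW3⟩ := exists_chart he (holV_comp_chart hg hgx)
  set χ := chartAt (Cm (p + 1)) x with hχ
  have hx : x ∈ χ.source := mem_chart_source _ x
  -- the map in the charts
  have hφc : ∀ u ∈ ball (0 : Cm m) 1, ContinuousAt φ u := fun u hu => (hφ u hu).1.continuousAt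
  set W' : Set (Cm m) := ball (0 : Cm m) 1 ∩ φ ⁻¹' (χ.source ∩ χ ⁻¹' W ∩ g ⁻¹' ψ.source) with hW'
  have hW'o : IsOpen W' := by
    refine ContinuousOn.isOpen_inter_preimage (fun u hu => (hφc u hu).continuousWithinAt)
      isOpen_ball ?_
    exact (χ.isOpen_inter_preimage hWo).inter (ψ.open_source.preimage hg.continuous)
  have hvW : v ∈ W' := ⟨hv, ⟨hx, hxW⟩, hgx⟩
  have hh : ∀ u ∈ W', ContDiffAt ℂ ω (fun u => χ (φ u)) u := by
    rintro u ⟨hu, ⟨hus, -⟩, -⟩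
    exact contMDiffAt_iff_contDiffAt.1
      (ContMDiffAt.comp u (H150.Gen.holAt_chart hus) (hφ u hu).1)
  refine H767.ns p W _ _ hWo hW1 hW2 (Cm m) W' (fun u => χ (φ u)) hW'o ?_ v hvW ?_
  · rintro u hu
    refine ⟨(hh u hu).analyticAt, ?_, hu.2.1.2⟩
    refine (hW3 _ hu.2.1.2).1 ?_
    rw [χ.left_inv hu.2.1.1]
    have h1 := (hφ u hu.1).2
    exact ⟨h1.1, fun h3 => h1.2 ((et_iff hg h1.1 (hloc _) hu.2.2).2 h3)⟩
  · -- the composition is `ψ ∘ g ∘ φ`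
    have h1 : (fun u => ((fun z => ψ (g z)) ∘ χ.symm) (χ (φ u))) =ᶠ[𝓝 v]
        fun u => ψ (g (φ u)) := by
      filter_upwards [hW'o.mem_nhds hvW] with u hu
      show ψ (g (χ.symm (χ (φ u)))) = _
      rw [χ.left_inv hu.2.1.1]
    rw [h1.fderiv_eq]
    have h2 : dV (Cm m) (fun u => ψ (g (φ u))) v =
        (dV (Cm p) (ψ : Z → Cm p) (g (φ v))).comp (dM (Cm m) (Cm p) (fun u => g (φ u)) v) :=
      dV_comp (E := Cm m) (E' := Cm p) (h := (ψ : Z → Cm p)) (f := fun u => g (φ u)) (x := v)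
        (HolV.chart hgx) (ContMDiffAt.comp v (hg _) (hφ v hv).1)
    have h3 : dV (Cm m) (fun u => ψ (g (φ u))) v = fderiv ℂ (fun u => ψ (g (φ u))) v := by
      unfold dV
      exact mfderiv_eq_fderiv
    rw [← h3, h2]
    intro y
    obtain ⟨ζ, hζ⟩ := (dV_chart_inj hgx).2 y
    obtain ⟨ξ, hξ⟩ := hs ζ
    refine ⟨ξ, ?_⟩
    have h4 : dM (Cm m) (Cm p) (fun u => g (φ u)) v ξ = ζ := hξ
    show dV (Cm p) (ψ : Z → Cm p) (g (φ v)) (dM (Cm m) (Cm p) (fun u => g (φ u)) v ξ) = y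
    rw [h4]
    exact hζ

/-- Near the image of an étale point, `g(D)` is everything. -/
theorem Et.mem_nhds {g : X → Z} (hg : ContMDiff 𝓘(ℂ, Cm (p + 1)) 𝓘(ℂ, Cm p) ω g) {D : Set X}
    {w : X} (hw : w ∈ D) (h : Et p g D w) : g '' D ∈ 𝓝 (g w) := by
  set ψ := chartAt (Cm p) (g w) with hψ
  have hgw : g w ∈ ψ.source := mem_chart_source _ _
  obtain ⟨e, he, -⟩ := id h
  have h1 := (et_iff hg hw ⟨e, he⟩ hgw).1 h
  obtain ⟨s, hs, hsw, hs1, -⟩ := h1.sec (holV_comp_chart hg hgw)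
  have h2 : ∀ᶠ y in 𝓝 (ψ (g w)), g (s y) ∈ ψ.source := by
    have hsc : ContinuousAt s (ψ (g w)) := hs.continuousAt
    have hsw' : s (ψ (g w)) = w := hsw
    have h3 : ContinuousAt (fun y => g (s y)) (ψ (g w)) :=
      ContinuousAt.comp (g := g) (f := s) hg.continuous.continuousAt hsc
    have h4 : (fun y => g (s y)) (ψ (g w)) = g w := congrArg g hsw'
    refine h3.eventually ?_
    rw [h4]
    exact ψ.open_source.mem_nhds hgw
  have h3 : ∀ᶠ z in 𝓝 (g w), z ∈ ψ.source ∧ (ψ (g (s (ψ z))) = ψ z ∧ s (ψ z) ∈ D) ∧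
      g (s (ψ z)) ∈ ψ.source := by
    have hc : ContinuousAt ψ (g w) := ψ.continuousAt hgw
    filter_upwards [ψ.open_source.mem_nhds hgw, hc.eventually hs1, hc.eventually h2] with z a b c
    exact ⟨a, b, c⟩
  filter_upwards [h3] with z hz
  exact ⟨s (ψ z), hz.2.1.2, ψ.injOn hz.2.2 hz.1 hz.2.1.1⟩

/-- **E9** -/
theorem full [T2Space X] [CompactSpace X] [T2Space Z] [PreconnectedSpace Z] {g : X → Z}
    (hg : ContMDiff 𝓘(ℂ, Cm (p + 1)) 𝓘(ℂ, Cm p) ω g) {D : Set X} (hDc : IsClosed D)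
    (hloc : ∀ x, ∃ e, J.IsLocalEq (Cm (p + 1)) D e x) {w : X} {e : X → ℂ} (hw : w ∈ D)
    (he : J.IsLocalEq (Cm (p + 1)) D e w)
    (hi : ∀ ξ : Cm (p + 1), mfderiv 𝓘(ℂ, Cm (p + 1)) 𝓘(ℂ, Cm p) g w ξ = 0 →
      J.dif (Cm (p + 1)) e w ξ = 0 → ξ = 0) : g '' D = univ := by
  have hEt : Et p g D w := ⟨e, he, hi⟩
  have hsm := notEt_small hg hloc
  set C := g '' {w | w ∈ D ∧ ¬ Et p g D w} with hC
  obtain ⟨hd, hp⟩ := H383.Gen.compl p Z C hsm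
  have hAc : IsClosed (g '' D) := (hDc.isCompact.image hg.continuous).isClosed
  have hop : IsOpen (g '' D ∩ Cᶜ) := by
    rw [isOpen_iff_mem_nhds]
    rintro z ⟨⟨y, hy, rfl⟩, hyC⟩
    have h1 : Et p g D y := by
      by_contra hcon
      exact hyC ⟨y, ⟨hy, hcon⟩, rfl⟩
    exact inter_mem (h1.mem_nhds hg hy) (hsm.1.isOpen_compl.mem_nhds hyC)
  have hne : (Cᶜ ∩ (g '' D ∩ Cᶜ)).Nonempty := by
    obtain ⟨z, hz, hzC⟩ := (mem_closure_iff_nhds.1 (hd (g w))) _ (hEt.mem_nhds hg hw)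
    exact ⟨z, hzC, hz, hzC⟩
  have hsub : Cᶜ ⊆ g '' D := by
    by_contra hcon
    rw [not_subset] at hcon
    obtain ⟨z, hz, hzD⟩ := hcon
    obtain ⟨y, -, hy1, hy2⟩ := hp (g '' D ∩ Cᶜ) (g '' D)ᶜ hop hAc.isOpen_compl (by
      intro y hy
      by_cases h : y ∈ g '' D
      · exact Or.inl ⟨h, hy⟩
      · exact Or.inr h) hne ⟨z, hz, hzD⟩
    exact hy2 hy1.1
  rw [← hAc.closure_eq]
  exact eq_univ_of_univ_subset ((hd.closure_eq).symm ▸ closure_mono hsub)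

/-- **E9**, in terms of the rank. -/
theorem full_rank [T2Space X] [CompactSpace X] [T2Space Z] [PreconnectedSpace Z] {g : X → Z}
    (hg : ContMDiff 𝓘(ℂ, Cm (p + 1)) 𝓘(ℂ, Cm p) ω g) {D : Set X} (hDc : IsClosed D)
    (hloc : ∀ x, ∃ e, J.IsLocalEq (Cm (p + 1)) D e x) {w : X} {e : X → ℂ} (hw : w ∈ D)
    (he : J.IsLocalEq (Cm (p + 1)) D e w) (hde : J.dif (Cm (p + 1)) e w ≠ 0)
    (hs : ∀ y : Cm p, ∃ ξ : Cm (p + 1), J.dif (Cm (p + 1)) e w ξ = 0 ∧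
      mfderiv 𝓘(ℂ, Cm (p + 1)) 𝓘(ℂ, Cm p) g w ξ = y) : g '' D = univ := by
  refine full hg hDc hloc hw he ?_
  set A : Cm (p + 1) →L[ℂ] Cm p := mfderiv 𝓘(ℂ, Cm (p + 1)) 𝓘(ℂ, Cm p) g w with hA
  set B : Cm (p + 1) →L[ℂ] ℂ := J.dif (Cm (p + 1)) e w with hB
  set L : Cm (p + 1) →ₗ[ℂ] (Cm p × ℂ) := (A : Cm (p + 1) →ₗ[ℂ] Cm p).prod
    (B : Cm (p + 1) →ₗ[ℂ] ℂ) with hL
  have hsu : Function.Surjective L := by
    rintro ⟨y, c⟩
    obtain ⟨η, hη⟩ : ∃ η, B η ≠ 0 := by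
      by_contra hcon
      push Not at hcon
      exact hde (ContinuousLinearMap.ext hcon)
    obtain ⟨ξ, h1, h2⟩ := hs (y - (c / B η) • A η)
    refine ⟨ξ + (c / B η) • η, ?_⟩
    have h1' : B ξ = 0 := h1
    have h2' : A ξ = y - (c / B η) • A η := h2
    show (A (ξ + (c / B η) • η), B (ξ + (c / B η) • η)) = (y, c)
    rw [map_add, map_add, map_smul, map_smul, h1', h2', zero_add, smul_eq_mul,
      div_mul_cancel₀ _ hη, sub_add_cancel]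
  have hin : Function.Injective L := by
    refine (LinearMap.injective_iff_surjective_of_finrank_eq_finrank ?_).2 hsu
    simp
  intro ξ h1 h2
  apply hin
  rw [map_zero]
  show (A ξ, B ξ) = (0, 0)
  have h1' : A ξ = 0 := h1
  have h2' : B ξ = 0 := h2
  rw [h1', h2']

end Vale.Agent.P281.H105.TM
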